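import Vale.Agent.P024.H114.Glue
import Vale.Agent.P024.ALL.Spec

/-!
P024: the arithmetic relation between the norm of a prime and the residue characteristic of the
corresponding valuation ring, at the primes `l` where it is alive.
-/

namespace Vale.Agent.P024.H586

open scoped NumberField
open IsDedekindDomain NumberField Vale.Agent.P024 Vale.Agent.P024.M4

theorem modEq_of_pow_modEq {r m m' s : ℕ} (hr : 2 ≤ r) (hs : 2 ≤ s)
    (h : r ^ m ≡ r ^ m' [MOD r ^ s - 1]) : m ≡ m' [MOD s] := by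
  have hrs : 1 ≤ r ^ s := Nat.one_le_pow _ _ (by omega)
  have h1 : r ^ s ≡ 1 [MOD r ^ s - 1] := by
    have := (Nat.modEq_iff_dvd' hrs).2 (dvd_refl (r ^ s - 1))
    exact this.symm
  have key : ∀ k : ℕ, r ^ k ≡ r ^ (k % s) [MOD r ^ s - 1] := by
    intro k
    have h2 : r ^ k = (r ^ s) ^ (k / s) * r ^ (k % s) := by
      rw [← pow_mul, ← pow_add, Nat.div_add_mod]
    rw [h2]
    have h3 : (r ^ s) ^ (k / s) ≡ 1 [MOD r ^ s - 1] := by
      have := h1.pow (k / s)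
      rwa [one_pow] at this
    have := h3.mul_right (r ^ (k % s))
    rwa [one_mul] at this
  have hlt : ∀ k : ℕ, r ^ (k % s) < r ^ s - 1 := by
    intro k
    have h2 : k % s ≤ s - 1 := by
      have := Nat.mod_lt k (show 0 < s by omega)
      omega
    have h3 : r ^ (k % s) ≤ r ^ (s - 1) := Nat.pow_le_pow_right (by omega) h2
    have h4 : r ^ s = r * r ^ (s - 1) := by
      rw [← pow_succ']
      congr 1
      omega
    have h5 : 2 ≤ r ^ (s - 1) := by
      calc 2 ≤ r := hr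
        _ = r ^ 1 := (pow_one r).symm
        _ ≤ r ^ (s - 1) := Nat.pow_le_pow_right (by omega) (by omega)
    have h6 : 2 * r ^ (s - 1) ≤ r * r ^ (s - 1) := Nat.mul_le_mul_right _ hr
    omega
  have h2 : r ^ (m % s) = r ^ (m' % s) :=
    Nat.ModEq.eq_of_lt_of_lt (((key m).symm.trans h).trans (key m')) (hlt m) (hlt m')
  exact Nat.pow_right_injective hr h2

theorem coprime_pow_sub_one {r s : ℕ} (hr : r.Prime) (hs : 0 < s) : (r ^ s - 1).Coprime r := by
  rw [Nat.coprime_comm, Nat.Prime.coprime_iff_not_dvd hr]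
  intro h
  have h1 : r ∣ r ^ s := dvd_pow_self r hs.ne'
  have h2 : 1 ≤ r ^ s := Nat.one_le_pow _ _ hr.pos
  have h3 : r ∣ 1 := by
    have := Nat.dvd_sub h1 h
    rwa [Nat.sub_sub_self h2] at this
  exact hr.one_lt.ne' (Nat.dvd_one.1 h3)

/-- **(A)** -/
theorem propA : ALL.PropA := by
  intro E₁ E₂ _ _ _ _ _ _ _ hE₂ F _ a ha _ v r₂ hr₂ hHit s hs
  obtain ⟨O, O₂, hO, hO₂, hOv, hmaps, hmem⟩ := hHit
  have hE₁ : SolvablyClosed E₁ := H114.solvablyClosed_of_isAlgClosed E₁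
  have hF : IsAlgClosure F E₁ := ⟨inferInstance, Algebra.IsAlgebraic.tower_top (K := ℚ) F⟩
  have hFn : Normal F E₁ := IsAlgClosure.normal F E₁
  have hFg : IsGalois F E₁ := ⟨⟩
  obtain ⟨φ, hφ, hφ'⟩ := exists_frob O hO v hOv
  have hcard : Nat.card (𝓞 F ⧸ v.asIdeal) = Ideal.absNorm v.asIdeal := by
    rw [Ideal.absNorm_apply]; rfl
  rw [hcard] at hφ'
  -- the Frobenius element on the second side
  obtain ⟨r', z, hr', hr'mem, hz, hz'⟩ := H114.frobQ O₂ hO₂
  have hrr : r' = r₂ := H114.resChar_unique O₂ hr' hr₂ hr'mem hmem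
  subst hrr
  have hs2 : 2 ≤ s := hs.two_le
  have hcop0 : (r' ^ s - 1).Coprime r' := coprime_pow_sub_one hr' hs.pos
  have hpos : 0 < r' ^ s - 1 := by
    have : 2 ^ 1 ≤ r' ^ s := (Nat.pow_le_pow_left hr'.two_le 1).trans
      (Nat.pow_le_pow_right hr'.pos hs.pos)
    omega
  obtain ⟨-, m, hm, -⟩ := H114.cyc O₂ hO₂ hr' hmem (a φ) z (hmaps φ hφ) hz hz' hcop0
  refine ⟨m, ?_⟩
  intro l hl hl2 hlr hsl hv
  have hlp : l.Prime := hl.out
  have hcop : ((r' ^ s - 1) * l).Coprime r' :=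
    Nat.Coprime.mul_left hcop0 ((Nat.coprime_primes hlp hr').mpr hlr)
  obtain ⟨-, m', hm', -⟩ := H114.cyc O₂ hO₂ hr' hmem (a φ) z (hmaps φ hφ) hz hz' hcop
  obtain ⟨ξ, hξ⟩ := hE₂.exists_primitiveRoot (r' ^ s - 1) hpos
  have h1 := hm ξ hξ.pow_eq_one
  have h2 := hm' ξ (by rw [pow_mul, hξ.pow_eq_one, one_pow])
  rw [h1, rootPow_eq_iff_modEq hξ _ _ hpos] at h2
  have h3 : m ≡ m' [MOD s] := modEq_of_pow_modEq hr'.two_le hs2 h2
  -- the norm
  have hlO : (l : E₁) ∉ O.nonunits := by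
    have := natCast_pow_notMem_nonunits hOv hv.1 1
    rwa [pow_one] at this
  have h4 := H114.cyc_alive hE₁ hE₂ a ha hlp hl2 v hv O hO hOv φ hφ 1 (Ideal.absNorm v.asIdeal)
    (fun ζ hζ => acts_on_root O φ _ hφ' l hlO ζ (by rwa [pow_one] at hζ))
  obtain ⟨ω, hω⟩ := hE₂.exists_primitiveRoot l hlp.pos
  have h5 := h4 ω (by rw [pow_one]; exact hω.pow_eq_one)
  have h6 := hm' ω (by rw [mul_comm, pow_mul, hω.pow_eq_one, one_pow])
  rw [h5, rootPow_eq_iff_modEq hω _ _ hlp.pos] at h6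
  have h7 := (ZMod.natCast_eq_natCast_iff _ _ _).mpr h6
  rw [Nat.cast_pow] at h7
  have hr0 : (r' : ZMod l) ≠ 0 := by
    intro h0
    rw [ZMod.natCast_eq_zero_iff] at h0
    exact hlr ((Nat.prime_dvd_prime_iff_eq hlp hr').1 h0)
  rcases le_total m m' with h | h
  · obtain ⟨k, hk⟩ := (Nat.modEq_iff_dvd' h).1 h3
    have hm'' : m' = m + k * s := by
      rw [mul_comm k s, ← hk]
      omega
    refine ⟨(r' : ZMod l) ^ k, ?_⟩
    rw [h7, hm'', pow_add, pow_mul]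
  · obtain ⟨k, hk⟩ := (Nat.modEq_iff_dvd' h).1 h3.symm
    have hm'' : m = m' + k * s := by
      rw [mul_comm k s, ← hk]
      omega
    refine ⟨((r' : ZMod l) ^ k)⁻¹, ?_⟩
    rw [h7, hm'', pow_add, pow_mul, inv_pow, mul_assoc, mul_inv_cancel₀ (pow_ne_zero _ (pow_ne_zero _ hr0)), mul_one]

end Vale.Agent.P024.H586
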