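import Vale.Agent.P024.H644.K10
import Vale.Agent.P024.H244.M3T.Transport

/-!
P024: if infinitely many alive primes have prime norm then the quotient of the cyclotomic
characters has finite order.
-/

namespace Vale.Agent.P024.H586

open scoped NumberField
open IsDedekindDomain NumberField Vale.Agent.P024

/-- **ETAF.** -/
theorem etaF {E₁ E₂ : Type*} [Field E₁] [CharZero E₁] [IsAlgClosed E₁] [Algebra.IsAlgebraic ℚ E₁]
    [Field E₂] [CharZero E₂] [IsGalois ℚ E₂] (hE₂ : SolvablyClosed E₂)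
    (F : IntermediateField ℚ E₁) [NumberField F]
    (a : (E₁ ≃ₐ[F] E₁) →* (E₂ ≃ₐ[ℚ] E₂)) (ha : Continuous a)
    (p : ℕ) [hpf : Fact p.Prime] (hp2 : p ≠ 2)
    (hinf : {v : HeightOneSpectrum (𝓞 F) |
      (Ideal.absNorm v.asIdeal).Prime ∧ v ∈ Alive a p}.Infinite) :
    ∃ m : ℕ, 0 < m ∧ ∀ g, eta a p g ^ m = 1 := by
  have hE₁ : SolvablyClosed E₁ := fun M _ _ => IntermediateField.eq_bot_of_isAlgClosed_of_isAlgebraic M
  have hF : IsAlgClosure F E₁ := ⟨inferInstance, Algebra.IsAlgebraic.tower_top (K := ℚ) F⟩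
  have hFn : Normal F E₁ := IsAlgClosure.normal F E₁
  have hFg : IsGalois F E₁ := ⟨⟩
  have hψ : Continuous (eta a p) :=
    TR.continuous_of_redu (eta a p) fun k => isOpen_ker_eta hE₁ hE₂ a ha (l := p) k
  refine H244.M3T.noSplit1_intermediate F p hp2 (eta a p) hψ (hinf.mono ?_)
  rintro v ⟨hv1, hv2⟩
  refine ⟨hv1, fun O hOv s hs => ?_⟩
  exact TR.eta_stab hE₁ hE₂ a ha hp2 v hv2 O (ne_top_of_center hOv) hOv s hs

end Vale.Agent.P024.H586
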